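import Vale.Agent.P137.Centred.Final

/-!
# P137: endpoint Sobolev regularity of the centred maximal function
-/

open MeasureTheory Vale.Agent.P137 Vale.Agent.P137.Centred

namespace Vale.Agent.Results.P137.Centred

/-- In every dimension the centred Hardy-Littlewood maximal function maps `W^{1,1}` into
`W^{1,1}_loc`, with a bound on the global `L¹` norm of the gradient. -/
theorem result : ∀ d : ℕ, 0 < d → ∃ C : ℝ, ∀ (f : EuclideanSpace ℝ (Fin d) → ℝ)
    (g : EuclideanSpace ℝ (Fin d) → EuclideanSpace ℝ (Fin d)),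
    Integrable f → Integrable g → HasWeakGrad f g →
      (∀ᵐ x, centeredMax f x ≠ ⊤) ∧
      LocallyIntegrable (fun x => (centeredMax f x).toReal) ∧
      ∃ G : EuclideanSpace ℝ (Fin d) → EuclideanSpace ℝ (Fin d), Integrable G ∧
        HasWeakGrad (fun x => (centeredMax f x).toReal) G ∧
        ∫ x, ‖G x‖ ≤ C * ∫ x, ‖g x‖ :=
  fun d hd => centeredMax_sobolev d hd (bandBound d hd)

end Vale.Agent.Results.P137.Centred
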