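import Vale.Agent.P137.Main

/-!
# P137: endpoint Sobolev regularity of the uncentred maximal function
-/

open MeasureTheory Vale.Agent.P137

namespace Vale.Agent.Results.P137.Uncentered

/-- In every dimension the uncentred maximal function over Euclidean balls maps `W^{1,1}` into
`W^{1,1}_loc`, with a bound on the global `L¹` norm of the gradient. -/
theorem result : ∀ d : ℕ, 0 < d → ∃ C : ℝ, ∀ (f : EuclideanSpace ℝ (Fin d) → ℝ)
    (g : EuclideanSpace ℝ (Fin d) → EuclideanSpace ℝ (Fin d)),
    Integrable f → Integrable g → HasWeakGrad f g →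
      (∀ᵐ x, uncenteredMax f x ≠ ⊤) ∧
      LocallyIntegrable (fun x => (uncenteredMax f x).toReal) ∧
      ∃ G : EuclideanSpace ℝ (Fin d) → EuclideanSpace ℝ (Fin d), Integrable G ∧
        HasWeakGrad (fun x => (uncenteredMax f x).toReal) G ∧
        ∫ x, ‖G x‖ ≤ C * ∫ x, ‖g x‖ :=
  uncenteredMax_sobolev

end Vale.Agent.Results.P137.Uncentered
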